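import Mathlib

/-!
# P228, block PW-b (helper773)

A finite dimensional, left translation invariant space of continuous functions on a compact group
on which `g` acts nontrivially yields a continuous unitary matrix representation `φ` with
`φ g ≠ 1`.
-/

namespace Vale.Agent.P228.H773

open MeasureTheory ContinuousMap
open scoped InnerProductSpace ComplexConjugate

section
variable {K : Type*} [Group K] [TopologicalSpace K] [IsTopologicalGroup K]

/-- left translation of functions -/
noncomputable def ltr (a : K) (f : C(K, ℂ)) : C(K, ℂ) := f.comp ⟨fun x => a⁻¹ * x, by fun_prop⟩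

@[simp] theorem ltr_apply (a : K) (f : C(K, ℂ)) (x : K) : ltr a f x = f (a⁻¹ * x) := rfl

theorem ltr_one (f : C(K, ℂ)) : ltr (1 : K) f = f := by
  ext x; simp

theorem ltr_mul (a b : K) (f : C(K, ℂ)) : ltr (a * b) f = ltr a (ltr b f) := by
  ext x; simp [mul_assoc]

theorem continuous_ltr (f : C(K, ℂ)) : Continuous fun a : K => ltr a f := by
  have h : Continuous fun q : K × K => f (q.1⁻¹ * q.2) :=
    f.continuous.comp ((continuous_fst.inv).mul continuous_snd)
  exact (ContinuousMap.curry ⟨fun q : K × K => f (q.1⁻¹ * q.2), h⟩).continuous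

end

/-- abstract form: a continuous isometric action on a finite dimensional inner product space -/
theorem exists_unitary {K : Type*} [Group K] [TopologicalSpace K] {V : Type*}
    [NormedAddCommGroup V] [InnerProductSpace ℂ V] [FiniteDimensional ℂ V]
    (T : K →* (V →ₗ[ℂ] V)) (hT : ∀ a v w, ⟪T a v, T a w⟫_ℂ = ⟪v, w⟫_ℂ)
    (hc : ∀ v, Continuous fun a => T a v) (g : K) (hg : T g ≠ 1) :
    ∃ (N : ℕ) (φ : K →* Matrix.unitaryGroup (Fin N) ℂ), Continuous φ ∧ φ g ≠ 1 := by
  classical
  let b := stdOrthonormalBasis ℂ V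
  let A : K → Matrix (Fin (Module.finrank ℂ V)) (Fin (Module.finrank ℂ V)) ℂ :=
    fun a => LinearMap.toMatrix b.toBasis b.toBasis (T a)
  have hA : ∀ a i j, A a i j = ⟪b i, T a (b j)⟫_ℂ := by
    intro a i j
    simp only [A, LinearMap.toMatrix_apply, OrthonormalBasis.coe_toBasis,
      OrthonormalBasis.coe_toBasis_repr_apply, OrthonormalBasis.repr_apply_apply]
  have hmul : ∀ a c, A (a * c) = A a * A c := by
    intro a c
    simp only [A, map_mul]
    exact LinearMap.toMatrix_mul b.toBasis (T a) (T c)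
  have hone : A 1 = 1 := by
    simp only [A, map_one]
    exact LinearMap.toMatrix_one b.toBasis
  have hu : ∀ a, A a ∈ Matrix.unitaryGroup (Fin (Module.finrank ℂ V)) ℂ := by
    intro a
    rw [Matrix.mem_unitaryGroup_iff']
    ext i j
    rw [Matrix.mul_apply]
    have h1 : ∀ k, (star (A a)) i k * A a k j = ⟪T a (b i), b k⟫_ℂ * ⟪b k, T a (b j)⟫_ℂ := by
      intro k
      rw [Matrix.star_apply, hA, hA, RCLike.star_def, inner_conj_symm]
    rw [Finset.sum_congr rfl fun k _ => h1 k, OrthonormalBasis.sum_inner_mul_inner, hT,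
      OrthonormalBasis.inner_eq_ite, Matrix.one_apply]
  refine ⟨Module.finrank ℂ V, ⟨⟨fun a => ⟨A a, hu a⟩, ?_⟩, ?_⟩, ?_, ?_⟩
  · exact Subtype.ext hone
  · intro a c
    exact Subtype.ext (hmul a c)
  · refine Continuous.subtype_mk (continuous_matrix fun i j => ?_) _
    have h2 : (fun a => A a i j) = fun a => ⟪b i, T a (b j)⟫_ℂ := by
      funext a; exact hA a i j
    rw [h2]
    exact Continuous.inner continuous_const (hc (b j))
  · intro h
    apply hg
    have h3 : A g = 1 := congrArg Subtype.val h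
    have h4 : LinearMap.toMatrix b.toBasis b.toBasis (T g)
        = LinearMap.toMatrix b.toBasis b.toBasis (1 : V →ₗ[ℂ] V) := by
      rw [LinearMap.toMatrix_one]; exact h3
    exact (LinearMap.toMatrix b.toBasis b.toBasis).injective h4

/-- **block PW-b** -/
theorem exists_rep {K : Type*} [Group K] [TopologicalSpace K] [IsTopologicalGroup K]
    [CompactSpace K] [T2Space K] (g : K) (E : Submodule ℂ C(K, ℂ)) [FiniteDimensional ℂ E]
    (hE : ∀ a : K, ∀ f ∈ E, ltr a f ∈ E) (hg : ∃ f ∈ E, ltr g f ≠ f) :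
    ∃ (N : ℕ) (φ : K →* Matrix.unitaryGroup (Fin N) ℂ), Continuous φ ∧ φ g ≠ 1 := by
  classical
  let _ : MeasurableSpace K := borel K
  have _ : BorelSpace K := ⟨rfl⟩
  let μ : Measure K := Measure.haar
  let τ : C(K, ℂ) →L[ℂ] Lp ℂ 2 μ := ContinuousMap.toLp 2 μ ℂ
  have hτ : Function.Injective τ := ContinuousMap.toLp_injective μ
  let V : Submodule ℂ (Lp ℂ 2 μ) := E.map (τ : C(K, ℂ) →ₗ[ℂ] Lp ℂ 2 μ)
  let e : E ≃ₗ[ℂ] V := Submodule.equivMapOfInjective (τ : C(K, ℂ) →ₗ[ℂ] Lp ℂ 2 μ) hτ E
  have he : ∀ f : E, ((e f : V) : Lp ℂ 2 μ) = τ f := fun f => rfl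
  have _ : FiniteDimensional ℂ V := LinearEquiv.finiteDimensional e
  let S : K →* (E →ₗ[ℂ] E) :=
    { toFun := fun a =>
        { toFun := fun f => ⟨ltr a f, hE a f f.2⟩
          map_add' := fun f h => by
            apply Subtype.ext; ext x; rfl
          map_smul' := fun c f => by
            apply Subtype.ext; ext x; rfl }
      map_one' := by
        apply LinearMap.ext; intro f
        exact Subtype.ext (ltr_one _)
      map_mul' := fun a c => by
        apply LinearMap.ext; intro f
        exact Subtype.ext (ltr_mul a c _) }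
  have hS : ∀ a (f : E), ((S a f : E) : C(K, ℂ)) = ltr a f := fun a f => rfl
  let T : K →* (V →ₗ[ℂ] V) :=
    { toFun := fun a => (e : E →ₗ[ℂ] V) ∘ₗ S a ∘ₗ (e.symm : V →ₗ[ℂ] E)
      map_one' := by
        apply LinearMap.ext; intro v
        simp
      map_mul' := fun a c => by
        apply LinearMap.ext; intro v
        simp }
  have hT : ∀ a v, T a v = e (S a (e.symm v)) := fun a v => rfl
  have hin : ∀ a v w, ⟪T a v, T a w⟫_ℂ = ⟪v, w⟫_ℂ := by
    intro a v w
    obtain ⟨f, rfl⟩ := e.surjective v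
    obtain ⟨h, rfl⟩ := e.surjective w
    rw [hT, hT, e.symm_apply_apply, e.symm_apply_apply]
    rw [Submodule.coe_inner, Submodule.coe_inner, he, he, he, he, hS, hS]
    simp only [τ]
    rw [ContinuousMap.inner_toLp, ContinuousMap.inner_toLp]
    exact integral_mul_left_eq_self
      (fun x => (h : C(K, ℂ)) x * conj ((f : C(K, ℂ)) x)) a⁻¹
  have hc : ∀ v, Continuous fun a => T a v := by
    intro v
    rw [continuous_induced_rng]
    have h5 : (Subtype.val ∘ fun a => T a v) = fun a => τ (ltr a (e.symm v : C(K, ℂ))) := by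
      funext a
      simp only [Function.comp, hT, he, hS]
    rw [h5]
    exact τ.continuous.comp (continuous_ltr _)
  have hgT : T g ≠ 1 := by
    obtain ⟨f, hf, hfg⟩ := hg
    intro h
    apply hfg
    have h6 : T g (e ⟨f, hf⟩) = e ⟨f, hf⟩ := by rw [h]; rfl
    rw [hT, e.symm_apply_apply] at h6
    have h7 := e.injective h6
    exact congrArg Subtype.val h7
  exact exists_unitary T hin hc g hgT

/-- **block PW-b**, literal interface of the P228 team (no auxiliary definition) -/
theorem exists_rep' {K : Type*} [Group K] [TopologicalSpace K] [IsTopologicalGroup K]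
    [CompactSpace K] [T2Space K] (g : K)
    (h : ∃ E : Submodule ℂ C(K, ℂ), FiniteDimensional ℂ E ∧
      (∀ a : K, ∀ f ∈ E, ∃ f' ∈ E, ∀ x, f' x = f (a⁻¹ * x)) ∧ ∃ f ∈ E, ∃ x, f (g⁻¹ * x) ≠ f x) :
    ∃ (N : ℕ) (φ : K →* Matrix.unitaryGroup (Fin N) ℂ), Continuous φ ∧ φ g ≠ 1 := by
  obtain ⟨E, hfd, hE, f, hf, x, hx⟩ := h
  refine exists_rep g E (fun a f hf => ?_) ⟨f, hf, fun h => hx ?_⟩
  · obtain ⟨f', hf', h'⟩ := hE a f hf
    have : ltr a f = f' := by ext y; rw [h', ltr_apply]
    rw [this]; exact hf'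
  · rw [← ltr_apply, h]

end Vale.Agent.P228.H773
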