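import Vale.Agent.P228.H773.Unif

/-!
# P228: a `ℤ_[p]`-action with small orbits in one chart ball is trivial, uniformly in `p`
-/

set_option linter.all false

namespace Vale.Agent.P228.H773

open Set Topology Metric Vale.Agent.P228.GR Vale.Agent.P228.GRL

/-- the rescaled form of `UnifNewman`. -/
theorem scaled {n : ℕ} {c : ℝ} (H : UnifNewman n c) {p : ℕ} [Fact p.Prime]
    (W : Set (EuclideanSpace ℝ (Fin n)))
    (a : ℤ_[p] → EuclideanSpace ℝ (Fin n) → EuclideanSpace ℝ (Fin n))
    (hW : IsOpen W) (act : LocAct p W a) (y : EuclideanSpace ℝ (Fin n)) (R : ℝ) (hR : 0 < R)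
    (hball : closedBall y R ⊆ W) (hdisp : ∀ u, ∀ x ∈ closedBall y R, ‖a u x - x‖ ≤ c * R) :
    ∀ u, a u y = y := by
  intro u
  let h : EuclideanSpace ℝ (Fin n) → EuclideanSpace ℝ (Fin n) := fun x => R⁻¹ • (x - y)
  let k : EuclideanSpace ℝ (Fin n) → EuclideanSpace ℝ (Fin n) := fun x => y + R • x
  have hhc : Continuous h := by fun_prop
  have hkc : Continuous k := by fun_prop
  have kh : ∀ x, k (h x) = x := by
    intro x
    simp only [h, k, smul_smul, mul_inv_cancel₀ hR.ne', one_smul, add_sub_cancel]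
  have hk : ∀ x, h (k x) = x := by
    intro x
    simp only [h, k, add_sub_cancel_left, smul_smul, inv_mul_cancel₀ hR.ne', one_smul]
  have act' : LocAct p (k ⁻¹' W) (fun u x => h (a u (k x))) :=
    locAct_conj (fun x hx => by rw [mem_preimage, kh]; exact hx) (fun x hx => hx)
      (fun x _ => kh x) (fun x _ => hk x) hhc.continuousOn hkc.continuousOn act
  have hkball : ∀ x ∈ closedBall (0 : EuclideanSpace ℝ (Fin n)) 1, k x ∈ closedBall y R := by
    intro x hx
    rw [mem_closedBall_zero_iff] at hx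
    rw [mem_closedBall, dist_eq_norm]
    simp only [k, add_sub_cancel_left, norm_smul, Real.norm_eq_abs, abs_of_pos hR]
    nlinarith
  have h1 := H p (k ⁻¹' W) _ (hW.preimage hkc) act' (fun x hx => hball (hkball x hx)) (by
    intro u x hx
    have h2 := hdisp u (k x) (hkball x hx)
    have h3 : h (a u (k x)) - x = R⁻¹ • (a u (k x) - k x) := by
      nth_rewrite 2 [← hk x]
      simp only [h, ← smul_sub, sub_sub_sub_cancel_right]
    rw [h3, norm_smul, norm_inv, Real.norm_eq_abs, abs_of_pos hR]
    rw [inv_mul_le_iff₀ hR]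
    linarith only [h2]) u
  have h4 : k 0 = y := by simp [k]
  have h5 : a u y = k (h (a u (k 0))) := by rw [kh, h4]
  rw [h5, h1, h4]

/-- **A `ℤ_[p]`-action with small orbits in a chart ball is trivial.** The bound does not depend on
`p`. -/
theorem trivial_of_small {n : ℕ} {c : ℝ} (hc : 0 < c) (hU : UnifNewman n c) {M : Type*}
    [TopologicalSpace M] [T2Space M] [ChartedSpace (EuclideanSpace ℝ (Fin n)) M]
    [PreconnectedSpace M] (e : OpenPartialHomeomorph M (EuclideanSpace ℝ (Fin n))) {x₁ : M}
    (hx₁ : x₁ ∈ e.source) {R : ℝ} (hR : 0 < R) (hRs : closedBall (e x₁) R ⊆ e.target)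
    {p : ℕ} [Fact p.Prime] [AddAction ℤ_[p] M] [ContinuousVAdd ℤ_[p] M]
    (hk' : ∀ u : ℤ_[p], ∀ x ∈ closedBall (e x₁) R, u +ᵥ e.symm x ∈ e.source ∧
      dist (e (u +ᵥ e.symm x)) x < c * (R / 2)) (u : ℤ_[p]) (m : M) : u +ᵥ m = m := by
  have hLN : GRL.LocalNewman p n := ⟨c, hc, hU p⟩
  have hk0 : ∀ u : ℤ_[p], ∀ x ∈ closedBall (e x₁) R, ((p : ℤ_[p]) ^ 0 * u) +ᵥ e.symm x ∈ e.source ∧
      dist (chartAct e 0 u x) x < c * (R / 2) := fun u x hx => by
    simp only [chartAct, chartMap, pow_zero, one_mul]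
    exact hk' u x hx
  have hct : e x₁ ∈ e.target := e.map_source hx₁
  have hmem : x₁ ∈ interior (fixG p M 0) := by
    let B : Set M := e.symm '' ball (e x₁) R
    have hBR : ball (e x₁) R ⊆ e.target := ball_subset_closedBall.trans hRs
    have hBopen : IsOpen B := e.symm.isOpen_image_of_subset_source isOpen_ball hBR
    let Nn : Set M := saturate (p := p) 0 B
    have hNopen : IsOpen Nn := isOpen_saturate 0 hBopen
    have hNs : Nn ⊆ e.source := by
      apply saturate_subset
      rintro u _ ⟨x, hx, rfl⟩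
      exact (hk0 u x (ball_subset_closedBall hx)).1
    have act : LocAct p (e '' Nn) (chartAct (p := p) e 0) :=
      locAct_chartAct e 0 hNs (fun u m hm => saturate_inv 0 B u hm)
    have hW : IsOpen (e '' Nn) := isOpen_chart_image e hNopen hNs
    have hballW : ball (e x₁) R ⊆ e '' Nn := by
      intro x hx
      exact ⟨e.symm x, subset_saturate 0 B ⟨x, hx, rfl⟩, e.right_inv (hBR hx)⟩
    have h1 : ∀ᶠ y in 𝓝 (e x₁), e.symm y ∈ fixG p M 0 := by
      filter_upwards [ball_mem_nhds (e x₁) (show 0 < R / 4 by positivity)] with y hy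
      have hsub : closedBall y (R / 2) ⊆ ball (e x₁) R := by
        apply closedBall_subset_ball'
        rw [mem_ball] at hy
        linarith
      refine mem_fixG_of_chartAct e (fun u => (hk0 u y ?_).1) (fun u => ?_)
      · exact ball_subset_closedBall (hsub (mem_closedBall_self (by positivity)))
      · refine scaled hU _ _ hW act y (R / 2) (by positivity) (hsub.trans hballW) ?_ u
        intro u x hx
        rw [← dist_eq_norm]
        exact (hk0 u x (ball_subset_closedBall (hsub hx))).2.le
    have h2 := mem_interior_fixG_of_chart e hct h1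
    rwa [e.left_inv hx₁] at h2
  have hclopen : IsClopen (interior (fixG p M 0)) := by
    refine ⟨isClosed_of_closure_subset fun x hx => ?_, isOpen_interior⟩
    exact touch_closed hLN (chartAt (EuclideanSpace ℝ (Fin n)) x) (mem_chart_source _ x) hx
  have huniv : interior (fixG p M 0) = univ := hclopen.eq_univ ⟨x₁, hmem⟩
  have h1 : m ∈ interior (fixG p M 0) := by rw [huniv]; trivial
  have h2 := interior_subset h1 u
  rwa [pow_zero, one_mul] at h2

end Vale.Agent.P228.H773
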