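import Mathlib.NumberTheory.Padics.RingHoms
import Mathlib.Topology.Algebra.ClopenNhdofOne
import Mathlib.Topology.Algebra.Group.Basic
import Mathlib.Order.Filter.Ultrafilter.Basic
import Mathlib.Topology.Ultrafilter
import Mathlib.NumberTheory.Padics.ProperSpace
import Mathlib.Data.Nat.Factorization.Basic
import Mathlib.GroupTheory.OrderOfElement

/-!
# A nontrivial compact totally disconnected group receives a nontrivial continuous homomorphism
from `ℤ_[p]`, for some prime `p`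
-/

namespace Vale.Agent.P228.H773

open Filter Topology Set

/-- An integer which is `1` modulo `p ^ k` and `0` modulo the prime-to-`p` part of `k!`. -/
theorem exists_exp {p : ℕ} (hp : p.Prime) (k : ℕ) : ∃ m : ℤ, (p : ℤ) ^ k ∣ m - 1 ∧
    ∀ d : ℕ, 0 < d → d ≤ k → ∀ a : ℤ, (p : ℤ) ^ d ∣ a → (d : ℤ) ∣ m * a := by
  have hf : k.factorial ≠ 0 := k.factorial_ne_zero
  have hco : IsCoprime ((p : ℤ) ^ k) ((ordCompl[p] k.factorial : ℕ) : ℤ) :=
    (Nat.isCoprime_iff_coprime.2 (Nat.coprime_ordCompl hp hf)).pow_left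
  obtain ⟨u, v, huv⟩ := hco
  refine ⟨v * ((ordCompl[p] k.factorial : ℕ) : ℤ), ⟨-u, ?_⟩, fun d hd hdk a ha => ?_⟩
  · linear_combination huv
  · have h1 : ordCompl[p] d ∣ ordCompl[p] k.factorial :=
      Nat.ordCompl_dvd_ordCompl_of_dvd (Nat.dvd_factorial hd hdk) p
    have h2 : (ordProj[p] d : ℕ) ∣ p ^ d := by
      apply pow_dvd_pow
      exact (Nat.factorization_lt p hd.ne').le
    have h3 : d ∣ p ^ d * ordCompl[p] k.factorial := by
      conv_lhs => rw [← Nat.ordProj_mul_ordCompl_eq_self d p]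
      exact mul_dvd_mul h2 h1
    have h4 : (d : ℤ) ∣ (p : ℤ) ^ d * ((ordCompl[p] k.factorial : ℕ) : ℤ) := by
      exact_mod_cast h3
    obtain ⟨b, rfl⟩ := ha
    have h5 : v * ((ordCompl[p] k.factorial : ℕ) : ℤ) * ((p : ℤ) ^ d * b) =
        (p : ℤ) ^ d * ((ordCompl[p] k.factorial : ℕ) : ℤ) * (v * b) := by ring
    rw [h5]
    exact h4.mul_right _

section

variable {K : Type*} [Group K] [TopologicalSpace K] [IsTopologicalGroup K] [CompactSpace K]
  [T2Space K] [TotallyDisconnectedSpace K]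

/-- the limit along a fixed ultrafilter -/
noncomputable def ulim (f : ℕ → K) : K := ((hyperfilter ℕ).map f).lim

theorem tendsto_ulim (f : ℕ → K) : Tendsto f (hyperfilter ℕ : Ultrafilter ℕ) (𝓝 (ulim f)) := by
  have := ((hyperfilter ℕ).map f).le_nhds_lim
  exact this

theorem hyper_le : ((hyperfilter ℕ : Ultrafilter ℕ) : Filter ℕ) ≤ atTop := by
  rw [← Nat.cofinite_eq_atTop]
  exact hyperfilter_le_cofinite

theorem pow_card_mem (V : OpenNormalSubgroup K) (g : K) {e : ℤ}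
    (he : (Nat.card (K ⧸ (V : Subgroup K)) : ℤ) ∣ e) : g ^ e ∈ V := by
  obtain ⟨t, rfl⟩ := he
  have h1 : ((g ^ (((Nat.card (K ⧸ (V : Subgroup K)) : ℕ) : ℤ) * t) : K) : K ⧸ (V : Subgroup K)) = 1 := by
    rw [QuotientGroup.mk_zpow, zpow_mul, zpow_natCast, pow_card_eq_one', one_zpow]
  exact (QuotientGroup.eq_one_iff _).1 h1

theorem card_pos (V : OpenNormalSubgroup K) : 0 < Nat.card (K ⧸ (V : Subgroup K)) := by
  have : Finite (K ⧸ (V : Subgroup K)) :=
    (inferInstance : Finite (K ⧸ V.toOpenSubgroup.toSubgroup))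
  exact Nat.card_pos

/-- If `e k` is eventually divisible by every positive integer then `g ^ e k → 1`. -/
theorem tendsto_zpow_one (g : K) (e : ℕ → ℤ) (he : ∀ d : ℕ, 0 < d → ∀ᶠ k in atTop, (d : ℤ) ∣ e k) :
    Tendsto (fun k => g ^ e k) (hyperfilter ℕ : Ultrafilter ℕ) (𝓝 1) := by
  refine Tendsto.mono_left ?_ hyper_le
  rw [tendsto_nhds]
  intro U hU h1
  obtain ⟨V, hV⟩ := ProfiniteGrp.exist_openNormalSubgroup_sub_open_nhds_of_one hU h1
  filter_upwards [he _ (card_pos V)] with k hk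
  exact hV (pow_card_mem V g hk)

theorem ulim_eq {f : ℕ → K} {x : K} (h : Tendsto f (hyperfilter ℕ : Ultrafilter ℕ) (𝓝 x)) :
    ulim f = x := tendsto_nhds_unique (tendsto_ulim f) h

/-- **A continuous homomorphism from `ℤ_[p]`.** -/
theorem exists_hom (V : OpenNormalSubgroup K) (g : K) (hgV : g ∉ V) :
    ∃ (p : ℕ) (_ : Fact p.Prime) (ψ : ℤ_[p] → K),
    Continuous ψ ∧ (∀ a b, ψ (a + b) = ψ a * ψ b) ∧ ψ 0 = 1 ∧ ψ 1 ∉ V := by
  classical
  -- the prime
  set N := orderOf ((g : K) : K ⧸ (V : Subgroup K)) with hN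
  have hN1 : N ≠ 1 := fun h => hgV ((QuotientGroup.eq_one_iff _).1 (orderOf_eq_one_iff.1 h))
  obtain ⟨p, hp, hpN⟩ := Nat.exists_prime_and_dvd hN1
  have : Fact p.Prime := ⟨hp⟩
  choose m hm1 hm2 using exists_exp hp
  let w : ℤ_[p] → ℕ → K := fun z k => g ^ (m k * (z.appr k : ℤ))
  have happr : ∀ (z : ℤ_[p]) (k : ℕ), (p : ℤ_[p]) ^ k ∣ z - z.appr k := fun z k =>
    Ideal.mem_span_singleton.1 (PadicInt.appr_spec k z)
  have hdvd : ∀ (z z' : ℤ_[p]) (k : ℕ), (p : ℤ) ^ k ∣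
      ((z + z').appr k : ℤ) - (z.appr k : ℤ) - (z'.appr k : ℤ) := fun z z' k => by
    have h1 := dvd_sub (dvd_add (happr z k) (happr z' k)) (happr (z + z') k)
    have h2 : z - (z.appr k : ℤ_[p]) + (z' - (z'.appr k : ℤ_[p])) - (z + z' - ((z + z').appr k : ℤ_[p]))
        = ((((z + z').appr k : ℤ) - (z.appr k : ℤ) - (z'.appr k : ℤ) : ℤ) : ℤ_[p]) := by
      push_cast; ring
    rw [h2] at h1
    exact_mod_cast (PadicInt.pow_p_dvd_int_iff k _).1 h1
  have hdvd' : ∀ (z : ℤ_[p]) (d k : ℕ), d ≤ k → (p : ℤ_[p]) ^ d ∣ z → (p : ℤ) ^ d ∣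
      (z.appr k : ℤ) := fun z d k hdk hz => by
    have h1 := dvd_sub hz ((pow_dvd_pow (p : ℤ_[p]) hdk).trans (happr z k))
    have h2 : z - (z - (z.appr k : ℤ_[p])) = (((z.appr k : ℤ) : ℤ) : ℤ_[p]) := by
      push_cast; ring
    rw [h2] at h1
    exact_mod_cast (PadicInt.pow_p_dvd_int_iff d _).1 h1
  have hadd : ∀ a b, ulim (w (a + b)) = ulim (w a) * ulim (w b) := fun a b => by
    refine ulim_eq ?_
    have h1 := ((tendsto_ulim (w a)).mul (tendsto_ulim (w b))).mul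
      (tendsto_zpow_one g (fun k => m k * (((a + b).appr k : ℤ) - (a.appr k : ℤ) - (b.appr k : ℤ)))
        fun d hd => (eventually_ge_atTop d).mono fun k hk => hm2 k d hd hk _
          ((pow_dvd_pow _ hk).trans (hdvd a b k)))
    rw [mul_one] at h1
    refine h1.congr fun k => ?_
    simp only [w]
    rw [← zpow_add, ← zpow_add]
    congr 1
    ring
  have hzero : ulim (w 0) = 1 := by
    have := hadd 0 0
    rw [add_zero] at this
    exact (mul_eq_left.1 this.symm)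
  have hmem : ∀ (V' : OpenNormalSubgroup K) (z : ℤ_[p]),
      (p : ℤ_[p]) ^ Nat.card (K ⧸ (V' : Subgroup K)) ∣ z → ulim (w z) ∈ V' := fun V' z hz => by
    refine V'.toOpenSubgroup.isClosed.mem_of_tendsto (tendsto_ulim (w z)) (hyper_le ?_)
    filter_upwards [eventually_ge_atTop (Nat.card (K ⧸ (V' : Subgroup K)))] with k hk
    exact pow_card_mem V' g (hm2 k _ (card_pos V') hk _ (hdvd' z _ k hk hz))
  refine ⟨p, ⟨hp⟩, fun z => ulim (w z), ?_, hadd, hzero, fun h1 => ?_⟩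
  · let Ψ : Multiplicative ℤ_[p] →* K :=
      { toFun := fun z => ulim (w (Multiplicative.toAdd z))
        map_one' := hzero
        map_mul' := fun a b => hadd _ _ }
    have hΨ : Continuous Ψ := by
      refine continuous_of_continuousAt_one Ψ ?_
      rw [ContinuousAt, map_one, tendsto_nhds]
      intro U hU hU1
      obtain ⟨V', hV'⟩ := ProfiniteGrp.exist_openNormalSubgroup_sub_open_nhds_of_one hU hU1
      have hp0 : (0 : ℝ) < (p : ℝ) ^ (-(Nat.card (K ⧸ (V' : Subgroup K)) : ℤ)) :=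
        zpow_pos (by exact_mod_cast hp.pos) _
      have h2 : Metric.closedBall (0 : ℤ_[p]) ((p : ℝ) ^ (-(Nat.card (K ⧸ (V' : Subgroup K)) : ℤ)))
          ∈ 𝓝 (0 : ℤ_[p]) := Metric.closedBall_mem_nhds 0 hp0
      have h3 : (Multiplicative.toAdd : Multiplicative ℤ_[p] → ℤ_[p]) ⁻¹'
          Metric.closedBall (0 : ℤ_[p]) ((p : ℝ) ^ (-(Nat.card (K ⧸ (V' : Subgroup K)) : ℤ)))
          ∈ 𝓝 (1 : Multiplicative ℤ_[p]) := continuous_toAdd.continuousAt.preimage_mem_nhds h2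
      filter_upwards [h3] with z hz
      refine hV' (hmem V' _ ?_)
      rw [mem_preimage, mem_closedBall_zero_iff] at hz
      exact Ideal.mem_span_singleton.1 ((PadicInt.norm_le_pow_iff_mem_span_pow _ _).1 hz)
    exact hΨ.comp continuous_ofAdd
  · have h2 : ulim (w 1) ∈ ((V : Set K)ᶜ : Set K) := by
      refine (V.toOpenSubgroup.isOpen.isClosed_compl).mem_of_tendsto (tendsto_ulim (w 1)) (hyper_le ?_)
      filter_upwards [eventually_ge_atTop 1] with k hk hmemV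
      have h3 : ((g : K) : K ⧸ (V : Subgroup K)) ^ (m k * ((1 : ℤ_[p]).appr k : ℤ)) = 1 := by
        rw [← QuotientGroup.mk_zpow]
        exact (QuotientGroup.eq_one_iff _).2 hmemV
      have h4 : (N : ℤ) ∣ m k * ((1 : ℤ_[p]).appr k : ℤ) := orderOf_dvd_iff_zpow_eq_one.2 h3
      have h5 : (p : ℤ) ∣ m k * ((1 : ℤ_[p]).appr k : ℤ) := (Int.natCast_dvd_natCast.2 hpN).trans h4
      have h6 : (p : ℤ) ∣ m k - 1 := (dvd_pow_self _ (by omega : k ≠ 0)).trans (hm1 k)
      have h7 : (p : ℤ) ∣ ((1 : ℤ_[p]).appr k : ℤ) - 1 := by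
        have h8 := happr 1 k
        have h9 : (1 : ℤ_[p]) - ((1 : ℤ_[p]).appr k : ℤ_[p]) =
            ((1 - ((1 : ℤ_[p]).appr k : ℤ) : ℤ) : ℤ_[p]) := by push_cast; ring
        rw [h9, PadicInt.pow_p_dvd_int_iff] at h8
        have h10 : (p : ℤ) ∣ 1 - ((1 : ℤ_[p]).appr k : ℤ) :=
          (dvd_pow_self _ (by omega : k ≠ 0)).trans h8
        rw [← neg_sub]
        exact h10.neg_right
      have h8 : (p : ℤ) ∣ 1 := by
        have h9 : (1 : ℤ) = m k * ((1 : ℤ_[p]).appr k : ℤ) - (m k - 1) * ((1 : ℤ_[p]).appr k : ℤ) -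
            (((1 : ℤ_[p]).appr k : ℤ) - 1) := by ring
        rw [h9]
        exact dvd_sub (dvd_sub h5 (h6.mul_right _)) h7
      exact (Nat.prime_iff_prime_int.1 hp).not_dvd_one h8
    exact h2 h1

end

end Vale.Agent.P228.H773
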