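import Vale.Agent.P228.H773.Local
import Vale.Agent.P228.H773.Profin

/-!
# P228: totally disconnected groups acting on manifolds

Every group acting faithfully and continuously on a connected manifold has an identity
neighbourhood which contains no nontrivial compact totally disconnected subgroup; in particular a
totally disconnected locally compact group acting faithfully and continuously on a connected
manifold is discrete.
-/

set_option linter.all false

namespace Vale.Agent.P228.H773

open Set Topology Metric Filter Vale.Agent.P228.GR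

universe u v

section

variable {n : ℕ} {M : Type u} [TopologicalSpace M]

/-- A group acting faithfully and continuously on a Hausdorff space is Hausdorff. -/
theorem t2_of_faithful [T2Space M] {G : Type v} [Group G] [TopologicalSpace G] [MulAction G M]
    [ContinuousSMul G M] [FaithfulSMul G M] : T2Space G := by
  refine T2Space.of_injective_continuous (f := fun (g : G) (m : M) => g • m) ?_ ?_
  · intro g g' h
    exact FaithfulSMul.eq_of_smul_eq_smul (α := M) fun m => congrFun h m
  · exact continuous_pi fun m => continuous_id.smul continuous_const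

/-- Small group elements move the points of a compact chart ball by little. -/
theorem small_nhds {G : Type v} [Group G] [TopologicalSpace G] [MulAction G M]
    [ContinuousSMul G M] (e : OpenPartialHomeomorph M (EuclideanSpace ℝ (Fin n)))
    {C : Set (EuclideanSpace ℝ (Fin n))} (hC : IsCompact C) (hCt : C ⊆ e.target) {δ : ℝ}
    (hδ : 0 < δ) : ∀ᶠ g : G in 𝓝 1, ∀ x ∈ C, g • e.symm x ∈ e.source ∧
      dist (e (g • e.symm x)) x < δ := by
  refine hC.eventually_forall_of_forall_eventually (P := fun (g : G) x => g • e.symm x ∈ e.source ∧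
    dist (e (g • e.symm x)) x < δ) fun x hx => ?_
  have hx1 : (1 : G) • e.symm x ∈ e.source := by
    rw [one_smul]; exact e.map_target (hCt hx)
  have h1 : ContinuousAt (fun z : G × EuclideanSpace ℝ (Fin n) => e.symm z.2) (1, x) :=
    (e.continuousAt_symm (hCt hx)).comp
      (f := fun z : G × EuclideanSpace ℝ (Fin n) => z.2) (x := (1, x)) continuousAt_snd
  have h2 : ContinuousAt (fun z : G × EuclideanSpace ℝ (Fin n) => z.1 • e.symm z.2) (1, x) :=
    continuousAt_fst.smul h1
  have h3 : ∀ᶠ z : G × EuclideanSpace ℝ (Fin n) in 𝓝 (1, x), z.1 • e.symm z.2 ∈ e.source :=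
    h2.preimage_mem_nhds (e.open_source.mem_nhds hx1)
  have h4 : ContinuousAt (fun z : G × EuclideanSpace ℝ (Fin n) => e (z.1 • e.symm z.2)) (1, x) :=
    (e.continuousAt hx1).comp (f := fun z : G × EuclideanSpace ℝ (Fin n) => z.1 • e.symm z.2)
      (x := (1, x)) h2
  have h5 : ContinuousAt (fun z : G × EuclideanSpace ℝ (Fin n) =>
      dist (e (z.1 • e.symm z.2)) z.2) (1, x) := h4.dist continuousAt_snd
  have h6 : dist (e ((1 : G) • e.symm x)) x < δ := by
    rw [one_smul, e.right_inv (hCt hx), dist_self]; exact hδ
  exact h3.and (h5.preimage_mem_nhds (Iio_mem_nhds h6))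

/-- **Uniform rigidity.** There is a constant `c > 0` which only depends on the dimension `n`: a
compact totally disconnected group acting continuously on a connected `n`-manifold which moves the
points of one ball of radius `R` of a chart by less than `c R` acts trivially. -/
theorem uniform (n : ℕ) : ∃ c > (0 : ℝ), ∀ (M : Type u) [TopologicalSpace M] [T2Space M]
    [ChartedSpace (EuclideanSpace ℝ (Fin n)) M] [ConnectedSpace M] (K : Type v) [Group K]
    [TopologicalSpace K] [IsTopologicalGroup K] [T2Space K] [CompactSpace K]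
    [TotallyDisconnectedSpace K] [MulAction K M] [ContinuousSMul K M]
    (e : OpenPartialHomeomorph M (EuclideanSpace ℝ (Fin n))) (y : EuclideanSpace ℝ (Fin n))
    (R : ℝ), 0 < R → closedBall y R ⊆ e.target →
    (∀ g : K, ∀ x ∈ closedBall y R, g • e.symm x ∈ e.source ∧
      dist (e (g • e.symm x)) x < c * R) → ∀ (g : K) (m : M), g • m = m := by
  obtain ⟨c, hc, hU⟩ := exists_unifNewman n
  refine ⟨c / 2, half_pos hc, fun M _ _ _ _ K _ _ _ _ _ _ _ _ e y R hR hRs hsm g m => ?_⟩
  by_contra hgm
  -- the elements which act trivially form a closed normal subgroup `N`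
  let N : Subgroup K :=
    { carrier := {g | ∀ m : M, g • m = m}
      mul_mem' := fun {a b} ha hb m => by rw [mul_smul, hb m, ha m]
      one_mem' := fun m => one_smul K m
      inv_mem' := fun {a} ha m => by rw [inv_smul_eq_iff, ha m] }
  have hNn : N.Normal := ⟨fun a ha b m => by
    rw [mul_smul, mul_smul, ha (b⁻¹ • m), smul_inv_smul]⟩
  have hNc : IsClosed (N : Set K) := by
    have : (N : Set K) = ⋂ m : M, {g | g • m = m} := by
      ext g
      simp [N]
    rw [this]
    exact isClosed_iInter fun m => isClosed_eq (continuous_id.smul continuous_const)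
      continuous_const
  have hgN : g ∉ N := fun h => hgm (h m)
  -- an open normal subgroup `V ⊇ N` which does not contain `g`
  have hU1 : IsOpen ((fun k : K => g⁻¹ * k) ⁻¹' (N : Set K))ᶜ :=
    (hNc.preimage (continuous_const.mul continuous_id)).isOpen_compl
  obtain ⟨H, hH⟩ := ProfiniteGrp.exist_openNormalSubgroup_sub_open_nhds_of_one hU1 (by
    rw [mem_compl_iff, mem_preimage, mul_one]
    exact fun h => hgN (inv_mem_iff.1 h))
  have hHn : (H : Subgroup K).Normal := inferInstance
  let V : OpenNormalSubgroup K :=
    { toSubgroup := (H : Subgroup K) ⊔ N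
      isOpen' := Subgroup.isOpen_mono le_sup_left H.isOpen
      isNormal' := inferInstance }
  have hgV : g ∉ V := by
    intro h
    obtain ⟨a, ha, b, hb, hab⟩ := Subgroup.mem_sup_of_normal_left.1 (show g ∈ (H : Subgroup K) ⊔ N
      from h)
    refine hH ha ?_
    rw [mem_preimage, ← hab, mul_inv_rev, mul_assoc, inv_mul_cancel, mul_one]
    exact N.inv_mem hb
  obtain ⟨p, hp, ψ, hψc, hψa, hψ0, hψ1⟩ := exists_hom V g hgV
  letI act : AddAction ℤ_[p] M :=
    { vadd := fun z m => ψ z • m
      zero_vadd := fun m => by
        change ψ 0 • m = m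
        rw [hψ0, one_smul]
      add_vadd := fun z z' m => by
        change ψ (z + z') • m = ψ z • ψ z' • m
        rw [hψa, mul_smul] }
  haveI : ContinuousVAdd ℤ_[p] M := ⟨by
    change Continuous fun z : ℤ_[p] × M => ψ z.1 • z.2
    exact (hψc.comp continuous_fst).smul continuous_snd⟩
  have hyt : y ∈ e.target := hRs (mem_closedBall_self hR.le)
  have hey : e (e.symm y) = y := e.right_inv hyt
  have htriv := trivial_of_small hc hU e (x₁ := e.symm y) (e.map_target hyt) hR
    (by rw [hey]; exact hRs) (p := p) fun z x hx => by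
      rw [hey] at hx
      have := hsm (ψ z) x hx
      exact ⟨this.1, this.2.trans_le (by linarith)⟩
  refine hψ1 ?_
  have h1 : ψ 1 ∈ N := fun m => htriv 1 m
  exact (le_sup_right : N ≤ (H : Subgroup K) ⊔ N) h1

/-- **No small compact totally disconnected subgroups.** -/
theorem no_small_subgroups (n : ℕ) (M : Type u) [TopologicalSpace M] [T2Space M]
    [ChartedSpace (EuclideanSpace ℝ (Fin n)) M] [ConnectedSpace M] {G : Type v} [Group G]
    [TopologicalSpace G] [IsTopologicalGroup G] [MulAction G M] [ContinuousSMul G M]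
    [FaithfulSMul G M] :
    ∃ U ∈ 𝓝 (1 : G), ∀ K : Subgroup G, (K : Set G) ⊆ U → IsCompact (K : Set G) →
      IsTotallyDisconnected (K : Set G) → K = ⊥ := by
  have hT2 : T2Space G := t2_of_faithful (M := M)
  obtain ⟨c, hc, hU⟩ := uniform.{u, v} n
  obtain ⟨x₀⟩ : Nonempty M := inferInstance
  let e := chartAt (EuclideanSpace ℝ (Fin n)) x₀
  have hx₀ : x₀ ∈ e.source := mem_chart_source _ x₀
  obtain ⟨R, hR, hRs⟩ := nhds_basis_closedBall.mem_iff.1
    (e.open_target.mem_nhds (e.map_source hx₀))
  have hsm := small_nhds (G := G) e (isCompact_closedBall (e x₀) R) hRs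
    (show 0 < c * R by positivity)
  refine ⟨_, hsm, fun K hKU hKc hKt => ?_⟩
  rw [Subgroup.eq_bot_iff_forall]
  intro g hg
  have : CompactSpace K := isCompact_iff_compactSpace.1 hKc
  have : TotallyDisconnectedSpace K := by
    rw [← totallyDisconnectedSpace_subtype_iff] at hKt
    exact hKt
  refine FaithfulSMul.eq_of_smul_eq_smul (α := M) fun m => ?_
  rw [one_smul]
  exact hU M K e (e x₀) R hR hRs (fun g x hx => hKU g.2 x hx) ⟨g, hg⟩ m

end

/-- van Dantzig: compact open subgroups in a locally compact totally disconnected group. -/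
theorem exists_compact_open_subgroup {G : Type v} [Group G] [TopologicalSpace G]
    [IsTopologicalGroup G] [T2Space G] [LocallyCompactSpace G] [TotallyDisconnectedSpace G]
    {U : Set G} (hU : U ∈ 𝓝 (1 : G)) :
    ∃ K : Subgroup G, (K : Set G) ⊆ U ∧ IsOpen (K : Set G) ∧ IsCompact (K : Set G) := by
  obtain ⟨C, hC, hCU, hCc⟩ := local_compact_nhds hU
  obtain ⟨W, hWcl, h1W, hWC⟩ := loc_compact_Haus_tot_disc_of_zero_dim.mem_nhds_iff.1
    (interior_mem_nhds.2 hC)
  have hWC' : W ⊆ C := hWC.trans interior_subset
  have hWcl' : IsClopen W := hWcl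
  have hWc : IsCompact W := hCc.of_isClosed_subset hWcl'.1 hWC'
  let K : Subgroup G :=
    { carrier := {g | ∀ w, w ∈ W ↔ w * g ∈ W}
      mul_mem' := fun {a b} ha hb w => by
        rw [ha w, hb (w * a), mul_assoc]
      one_mem' := fun w => by rw [mul_one]
      inv_mem' := fun {a} ha w => by
        rw [ha (w * a⁻¹), inv_mul_cancel_right] }
  have hKW : (K : Set G) ⊆ W := fun g hg => by
    have := (hg 1).1 h1W
    rwa [one_mul] at this
  have hKn : (K : Set G) ∈ 𝓝 (1 : G) := by
    have h1 : ∀ᶠ g : G in 𝓝 1, ∀ w ∈ W, w * g ∈ W :=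
      hWc.eventually_forall_of_forall_eventually (P := fun g w => w * g ∈ W) fun w hw => by
        have h2 : Continuous fun z : G × G => z.2 * z.1 := continuous_snd.mul continuous_fst
        refine h2.continuousAt.preimage_mem_nhds (hWcl'.2.mem_nhds ?_)
        change w * 1 ∈ W
        rwa [mul_one]
    have h2 : ∀ᶠ g : G in 𝓝 1, ∀ w ∈ W, w * g⁻¹ ∈ W := by
      have := (continuous_inv (G := G)).tendsto 1
      rw [inv_one] at this
      exact this.eventually h1
    filter_upwards [h1, h2] with g hg hg' w
    refine ⟨hg w, fun h => ?_⟩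
    have := hg' _ h
    rwa [mul_inv_cancel_right] at this
  have hKo : IsOpen (K : Set G) := K.isOpen_of_mem_nhds hKn
  exact ⟨K, hKW.trans (hWC'.trans hCU), hKo,
    hWc.of_isClosed_subset (K.isClosed_of_isOpen hKo) hKW⟩

/-- **Totally disconnected locally compact groups acting on manifolds are discrete.** -/
theorem discrete_of_tdlc (n : ℕ) (M : Type u) [TopologicalSpace M] [T2Space M]
    [ChartedSpace (EuclideanSpace ℝ (Fin n)) M] [ConnectedSpace M] {G : Type v} [Group G]
    [TopologicalSpace G] [IsTopologicalGroup G] [LocallyCompactSpace G]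
    [TotallyDisconnectedSpace G] [MulAction G M] [ContinuousSMul G M] [FaithfulSMul G M] :
    DiscreteTopology G := by
  haveI : T2Space G := t2_of_faithful (M := M)
  obtain ⟨U, hU, H⟩ := no_small_subgroups n M (G := G)
  obtain ⟨K, hKU, hKo, hKc⟩ := exists_compact_open_subgroup hU
  have hK : K = ⊥ := H K hKU hKc (isTotallyDisconnected_of_totallyDisconnectedSpace _)
  rw [hK, Subgroup.coe_bot] at hKo
  exact discreteTopology_of_isOpen_singleton_one hKo

end Vale.Agent.P228.H773
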