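import Vale.Agent.P228.Bdl.B4

/-!
# P228: the local Newman theorem with a constant which does not depend on the prime

The proofs of `Geo.exists_discData` and `Top.localNewman_even` give the constant explicitly; we
record that it does not depend on `p`.
-/

set_option linter.all false

namespace Vale.Agent.P228.Geo

open Set Metric Topology Vale.Agent.P228.Lab

variable {p : ℕ} [Fact p.Prime] {n : ℕ}

/-- `exists_discData` with the explicit constant. -/
theorem exists_discData_unif (hn : 0 < n) (K₀ L C : ℕ) (W : Set (EuclideanSpace ℝ (Fin n)))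
    (a : ℤ_[p] → EuclideanSpace ℝ (Fin n) → EuclideanSpace ℝ (Fin n))
    (hW : IsOpen W) (act : LocAct p W a)
    (hB : closedBall (0 : EuclideanSpace ℝ (Fin n)) 1 ⊆ W)
    (hd : ∀ u, ∀ x ∈ closedBall (0 : EuclideanSpace ℝ (Fin n)) 1,
      ‖a u x - x‖ ≤ 1 / (64 * n * (C + K₀ + 2)))
    (hne : ∃ u, a u 0 ≠ 0) : ∃ D, ∀ M, ∃ k, Nonempty (DiscData p n k K₀ L C M D) := by
  obtain ⟨c, hcdef⟩ : ∃ c : ℝ, c = 1 / (64 * n * (C + K₀ + 2)) := ⟨_, rfl⟩
  rw [← hcdef] at hd
  have hcpos : 0 < c := by rw [hcdef]; positivity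
  have hB1 : closedBall (0 : EuclideanSpace ℝ (Fin n)) (1 / 2) ⊆ W :=
    (closedBall_subset_closedBall (by norm_num)).trans hB
  obtain ⟨r₀, hr₀, hr₀κ, η, hη, hCη, d, U, U', lab, m, hm, hcov, hUU', hUW, -, -, -, hlab, hmarg⟩ :=
    exists_geometry act (R := 1 / 2) (by norm_num) hB1 hne (C := 4 * n * C) (κ := 1 / 8)
      (by (clear * - hn; positivity)) (by norm_num)
  refine ⟨d, fun M => ?_⟩
  -- the fine scale
  obtain ⟨δ, hδ, hMc, hMη, hMm⟩ : ∃ δ : ℝ, 0 < δ ∧ (M : ℝ) * δ ≤ c ∧ (M : ℝ) * δ ≤ η ∧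
      (M : ℝ) * δ ≤ m := by
    have hmin : 0 < min c (min η m) := lt_min hcpos (lt_min hη hm)
    have hMδ : (M : ℝ) * (min c (min η m) / (M + 1)) ≤ min c (min η m) := by
      rw [mul_div_assoc', div_le_iff₀ (by (clear * -; positivity))]
      nlinarith only [hmin]
    exact ⟨min c (min η m) / (M + 1), by (clear * - hcpos hη hm; positivity), hMδ.trans (min_le_left _ _),
      hMδ.trans ((min_le_right _ _).trans (min_le_left _ _)),
      hMδ.trans ((min_le_right _ _).trans (min_le_right _ _))⟩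
  obtain ⟨k, T, D, hk, hT, hTr, hRad, hWin, hCe, hRin, hchain⟩ :=
    exists_maps_chain hn K₀ L C hcdef hW act hB hd hr₀ M hδ hMc
  obtain ⟨rho, eta, hnum1, hnum2, hnum3, hnum4⟩ := num_rho hn hr₀ hr₀κ hη hCη hTr
  have hball : ∀ v : Fin n → ℤ, InBox (2 * T + K₀ * D.e) v →
      pt (8 * n * T) v ∈ closedBall (0 : EuclideanSpace ℝ (Fin n)) 1 := by
    intro v hv
    have := hRin v hv
    simp only [mem_closedBall, dist_zero_right]; linarith only [this]
  have hNpos : 0 < 8 * n * T := by (clear * - hn hT; positivity)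
  refine ⟨k, ⟨DiscData.mk D (2 * T) T rho eta (fun j => {v | pt (8 * n * T) v ∈ U j})
    (fun j v => lab j (pt (8 * n * T) v)) hk hRad hWin hCe hnum1 hnum2 ?_ ?_ ?_⟩⟩
  · intro g r x y hr hxy hy
    exact (hchain g r x y hr hxy hy).2.1
  · intro j g r x y hr hxy hy hxU hyU
    obtain ⟨hx, -, u, hu, hd'⟩ := hchain g r x y hr hxy hy
    show lab j (pt (8 * n * T) x) = lab j (pt (8 * n * T) y) + _
    rw [← hu, toZMod_eq_cast hk]
    apply hlab j u _ hyU _ hxU
    rw [dS_comm]
    exact hd'.trans hMm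
  · intro y hy
    have hyB := hball y (hy.mono (by omega))
    have hy2 : pt (8 * n * T) y ∈ closedBall (0 : EuclideanSpace ℝ (Fin n)) (1 / 2) := by
      have := hRin y (hy.mono (by omega))
      simpa only [one_div, mem_closedBall, dist_zero_right, ge_iff_le] using this
    rcases hcov _ hy2 with ⟨j, hj⟩ | ⟨hlt, hdis⟩
    · left
      refine ⟨j, fun g r x hr hxy => ?_⟩
      obtain ⟨hx, -, u, hu, hd'⟩ := hchain g r x y hr hxy hy
      show pt (8 * n * T) x ∈ U j
      apply hmarg j u _ hj _ (hB (hball x hx))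
      rw [dS_comm]
      exact hd'.trans hMm
    · right
      refine ⟨fun hbox => ?_, fun g r x hr hxy => ?_⟩
      · have h1 := norm_pt_le (N := 8 * n * T) hbox
        linarith only [hnum3, hlt, h1]
      · obtain ⟨hx, -, u, hu, hd'⟩ := hchain g r x y hr hxy hy
        apply close_of_real
        intro i
        have h7 := norm_sub_le_dS act (hB (hball x hx)) (act.maps u _ (hB hyB))
        have h8 := (hdis u).le
        have h9 : ‖pt (8 * n * T) x - pt (8 * n * T) y‖ ≤ η + η := by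
          have := norm_sub_le_norm_sub_add_norm_sub (pt (8 * n * T) x) (a u (pt (8 * n * T) y))
            (pt (8 * n * T) y)
          (clear hn hW hne c hd hcdef hcpos hB1 hη hCη d U U' lab m hm hcov hUU' hUW hlab hmarg hδ hMc hMm hk hTr hRad hWin hCe hchain hnum1 hnum2 hnum3 hnum4 hNpos hy2 hlt g r hr hxy hu i; linarith)
        rcases abs_pt_sub (N := 8 * n * T) x y i with h10 | h10
        · calc _ ≤ _ := h10
            _ ≤ ((8 * n * T : ℕ) : ℝ) * (η + η) := mul_le_mul_of_nonneg_left h9 (by (clear * - hn hT; positivity))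
            _ ≤ eta := hnum4
        · omega


end Vale.Agent.P228.Geo

namespace Vale.Agent.P228.Top

open Vale.Agent.P228.Kos Vale.Agent.P228.Geo Set Metric Geo Kos

theorem localNewman_even_unif (m : ℕ) (hm : 0 < m) (K₀ L r₀ cc : ℕ)
    (σ σ' : LMat (Cl (2 * m)) ℂ) (hσ : ∀ (c : ℕ), 1 ≤ c → Form pos (Close (n := 2 * m) c) σ σ')
    (hfin : FinFib (pos (n := 2 * m))) (hr₀ : 1 ≤ r₀)
    (hK : K4Statement) (hS : InvStatement m σ σ')
    (hF : ∀ (p : ℕ) [Fact p.Prime], FormStatement m p K₀ L r₀ cc σ σ') :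
    ∃ c > (0 : ℝ), ∀ (p : ℕ) [Fact p.Prime] (W : Set (EuclideanSpace ℝ (Fin (2 * m))))
      (a : ℤ_[p] → EuclideanSpace ℝ (Fin (2 * m)) → EuclideanSpace ℝ (Fin (2 * m))),
      IsOpen W → LocAct p W a → closedBall (0 : EuclideanSpace ℝ (Fin (2 * m))) 1 ⊆ W →
      (∀ u, ∀ x ∈ closedBall (0 : EuclideanSpace ℝ (Fin (2 * m))) 1, ‖a u x - x‖ ≤ c) →
      ∀ u, a u 0 = 0 := by
  obtain ⟨K, hS⟩ := hS
  have hn : 0 < 2 * m := by omega
  refine ⟨1 / (64 * ((2 * m : ℕ) : ℝ) * ((((2 * K + 1) * (r₀ * K₀ + 4) : ℕ) : ℝ) + K₀ + 2)),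
    by positivity, fun p _ W a hW act hB hd => ?_⟩
  replace hF := hF p
  have H := exists_discData_unif (p := p) hn K₀ L ((2 * K + 1) * (r₀ * K₀ + 4))
  by_contra hcon
  push Not at hcon
  obtain ⟨D, hD⟩ := H W a hW act hB hd hcon
  set R := 5 ^ D * 1 with hR
  obtain ⟨k, ⟨X⟩⟩ := hD ((2 * K + 1) * (R * r₀))
  have : NeZero (p ^ k) := ⟨pow_ne_zero _ (Fact.out : p.Prime).ne_zero⟩
  have : NeZero p := ⟨(Fact.out : p.Prime).ne_zero⟩
  have hpq : p ∣ p ^ k := dvd_pow_self p (by have := X.k_pos; omega)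
  set c₁ := (r₀ * K₀ + 4) * X.e with hc₁
  have h4 : 4 * X.e ≤ c₁ := Nat.mul_le_mul_right _ (by omega)
  have h5 : r₀ * (K₀ * X.e) ≤ c₁ := by
    rw [← mul_assoc]; exact Nat.mul_le_mul_right _ (by omega)
  have hRM : R * r₀ ≤ (2 * K + 1) * (R * r₀) := Nat.le_mul_of_pos_left _ (by omega)
  have hKM : 2 * K * (R * r₀) ≤ (2 * K + 1) * (R * r₀) := Nat.mul_le_mul_right _ (by omega)
  have hWin : (2 * K + 1) * c₁ ≤ X.Win := by
    have := X.e_le
    rwa [mul_assoc] at this
  have hC1 : 1 ≤ (2 * K + 1) * (r₀ * K₀ + 4) := Nat.one_le_iff_ne_zero.2 (by (clear * - hr₀; positivity))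
  obtain ⟨F⟩ := hF k X.k_pos X.toMaps X.Rin X.Rin_le
  obtain ⟨s, hs, hne⟩ := hS (c₁ + cc * X.e + 1)
  have hsK : SProps (kRel X hpq r₀ c₁ R h4 hRM).E (Corner (KE X r₀ c₁ R) K (walls (2 * m))) s := by
    apply hs (KE X r₀ c₁ R)
    · exact kE_refl X
    · intro x y; exact kE_symm X
    · intro x y h; exact close_mono (by omega) (kE_close X hRM h)
  have e1 := hK p (p ^ k) hpq (Pos (2 * m)) (kRel X hpq r₀ c₁ R h4 hRM) _ s hsK (Cl (2 * m)) pos
    F.θ F.θ' 1 hfin F.form (F.supp.toGSup X hpq h4 hRM h5 le_rfl)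
    (F.supp'.toGSup X hpq h4 hRM h5 le_rfl) le_rfl
    (fun b hb => corner_deep X hRM hKM hWin hC1
      (fun i => List.mem_map.2 ⟨i, List.mem_finRange i, rfl⟩) hb)
  have hcoarse : ∀ c : ℕ, c ≤ c₁ + cc * X.e + 1 →
      SProps (Close (n := 2 * m) c) (Corner (Close c) K (walls (2 * m))) s := by
    intro c hc
    apply hs
    · exact close_refl c
    · intro x y h; exact close_symm h
    · intro x y h; exact close_mono hc h
  have e2 := F.coarse_zero s (hcoarse (cc * X.e) (by (clear σ σ' hσ hfin hr₀ hK hF hS H W a hW act hB hd hcon hD hR hpq hc₁ h5 hRM hKM hWin hC1 F s hs hne hsK e1 hcoarse; omega))).path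
  have e3 := F.coarse_one s (hcoarse (cc * X.e) (by omega)).path
  have e4 := (hcoarse 1 (by omega)).neg pos hfin σ σ' (hσ _ le_rfl)
  rw [e2, e3, e4] at e1
  exact hne (by (clear K₀ L r₀ cc hσ hfin hr₀ hK hF K hS H W a hW act hB hd hcon D hD R hR X hpq c₁ hc₁ h4 h5 hRM hKM hWin hC1 F hs hne hsK hcoarse e2 e3 e4; omega))

/-- **the local Newman theorem in even dimensions, uniformly in `p`** -/
theorem localNewman_unif_of_inv (m : ℕ) (hm : 0 < m) (hS : InvStatement m (Std.sigma m) (Std.sigma' m)) :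
    ∃ c > (0 : ℝ), ∀ (p : ℕ) [Fact p.Prime] (W : Set (EuclideanSpace ℝ (Fin (2 * m))))
      (a : ℤ_[p] → EuclideanSpace ℝ (Fin (2 * m)) → EuclideanSpace ℝ (Fin (2 * m))),
      IsOpen W → LocAct p W a → closedBall (0 : EuclideanSpace ℝ (Fin (2 * m))) 1 ⊆ W →
      (∀ u, ∀ x ∈ closedBall (0 : EuclideanSpace ℝ (Fin (2 * m))) 1, ‖a u x - x‖ ≤ c) →
      ∀ u, a u 0 = 0 :=
  localNewman_even_unif m hm 50 3 _ _ _ _ (fun _ hr => form_std m hr) (finFib_pos _)
    (by omega) koszul hS (fun p _ => formStatement (p := p) (Std.cubDual_spec m) le_rfl)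

end Vale.Agent.P228.Top

namespace Vale.Agent.P228.GR

open Set Metric

/-- **Newman's theorem for `ℤ_[p]`-actions, with a constant which only depends on the dimension**:
an action on an open neighbourhood of the closed unit ball of `ℝ^n` which moves the points of the
ball by at most `c` fixes the origin. -/
def UnifNewman (n : ℕ) (c : ℝ) : Prop :=
  ∀ (p : ℕ) [Fact p.Prime] (W : Set (EuclideanSpace ℝ (Fin n)))
    (a : ℤ_[p] → EuclideanSpace ℝ (Fin n) → EuclideanSpace ℝ (Fin n)),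
    IsOpen W → LocAct p W a → closedBall (0 : EuclideanSpace ℝ (Fin n)) 1 ⊆ W →
    (∀ u, ∀ x ∈ closedBall (0 : EuclideanSpace ℝ (Fin n)) 1, ‖a u x - x‖ ≤ c) →
    ∀ u, a u 0 = 0

/-- the local theorem descends, with the same constant -/
theorem unifNewman_of_succ {n : ℕ} {c : ℝ} (h : UnifNewman (n + 1) c) : UnifNewman n c := by
  intro p _ W a hW act hball hdisp u
  set a' : ℤ_[p] → EuclideanSpace ℝ (Fin (n + 1)) → EuclideanSpace ℝ (Fin (n + 1)) :=
    fun u x => x + addZero (a u (dropLast x) - dropLast x) with ha'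
  have hdrop : ∀ u x, dropLast (a' u x) = a u (dropLast x) := by
    intro u x
    simp only [ha']
    rw [dropLast_add, dropLast_addZero]
    abel
  have act' : LocAct p (dropLast ⁻¹' W) a' := by
    refine ⟨?_, ?_, ?_, ?_⟩
    · intro v x hx
      rw [mem_preimage, hdrop]
      exact act.maps v _ hx
    · intro x hx
      simp only [ha']
      rw [act.zero _ hx, sub_self, addZero_zero, add_zero]
    · intro v w x hx
      have e : a' v (a' w x) = a' w x + addZero (a v (dropLast (a' w x)) - dropLast (a' w x)) := rfl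
      rw [e, hdrop]
      simp only [ha']
      rw [act.add v w _ hx, add_assoc, ← addZero_add]
      congr 2
      abel
    · have h1 : ContinuousOn (fun q : ℤ_[p] × EuclideanSpace ℝ (Fin (n + 1)) =>
          (q.1, dropLast q.2)) (univ ×ˢ (dropLast ⁻¹' W)) :=
        (continuous_fst.prodMk (continuous_dropLast.comp continuous_snd)).continuousOn
      have h2 : ContinuousOn (fun q : ℤ_[p] × EuclideanSpace ℝ (Fin (n + 1)) =>
          a q.1 (dropLast q.2)) (univ ×ˢ (dropLast ⁻¹' W)) :=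
        act.cont.comp h1 (fun q hq => ⟨trivial, hq.2⟩)
      have h3 : ContinuousOn (fun q : ℤ_[p] × EuclideanSpace ℝ (Fin (n + 1)) =>
          a q.1 (dropLast q.2) - dropLast q.2) (univ ×ˢ (dropLast ⁻¹' W)) :=
        h2.sub (continuous_dropLast.comp continuous_snd).continuousOn
      exact continuous_snd.continuousOn.add (continuous_addZero.comp_continuousOn h3)
  have h1 := h p (dropLast ⁻¹' W) a' (hW.preimage continuous_dropLast) act' (by
      intro x hx
      apply hball
      rw [mem_closedBall_zero_iff] at hx ⊢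
      exact (norm_dropLast_le x).trans hx) (by
      intro v x hx
      simp only [ha', add_sub_cancel_left, norm_addZero]
      apply hdisp
      rw [mem_closedBall_zero_iff] at hx ⊢
      exact (norm_dropLast_le x).trans hx) u
  have h2 := hdrop u 0
  rw [h1, dropLast_zero] at h2
  exact h2.symm

theorem unifNewman_of_add {n : ℕ} {c : ℝ} (k : ℕ) (h : UnifNewman (n + k) c) : UnifNewman n c := by
  induction k with
  | zero => exact h
  | succ k ih => exact ih (unifNewman_of_succ h)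

/-- **the uniform local Newman theorem in all dimensions** -/
theorem exists_unifNewman (n : ℕ) : ∃ c > 0, UnifNewman n c := by
  have hm : 0 < n + 1 := Nat.succ_pos n
  obtain ⟨c, hc, h⟩ := Top.localNewman_unif_of_inv (n + 1) hm (Inv.invStatement hm)
  have e : 2 * (n + 1) = n + (n + 2) := by ring
  have h' : UnifNewman (2 * (n + 1)) c := fun p _ W a => h p W a
  rw [e] at h'
  exact ⟨c, hc, unifNewman_of_add (n + 2) h'⟩

end Vale.Agent.P228.GR
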